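import Vale.Agent.P144DR.Fin

namespace Vale.Agent.Results.P144.AAAAACont

open Filter Topology MeasureTheory Vale.Agent.P144 Vale.Agent.P144Z Vale.Agent.P144DD
open Vale.Agent.P144DR

theorem result : ∀ J > 0, ∃ (C : Pts → ℝ) (CD : Set ℂ → Option (ℝ → Config) → Pts → ℝ)
    (ν : ∀ r : ℕ, (Fin r → ℂ → ℝ) → Measure (Fin r → ℝ))
    (νD : Set ℂ → Option (ℝ → Config) → ∀ r : ℕ, (Fin r → ℂ → ℝ) → Measure (Fin r → ℝ))
    (κ₀ : ℝ → Fin 2 → Fin 2 → ℝ) (T : ∀ n m : ℕ, (Pos n m → ℝ) → ℝ)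
    (TD : Set ℂ → Option (ℝ → Config) → ∀ n m : ℕ, (Pos n m → ℝ) → ℝ),
    (∃ E₀, PlaneFam J 0 (fun _ => 0) (Kc / J) E₀) ∧
    (∃ μ₀, IsPlaneState J 0 (fun _ => 0) (Kc / J) μ₀ ∧ κ₀ = kz μ₀) ∧
    (∀ p, Good Set.univ p → (∀ E₀, PlaneFam J 0 (fun _ => 0) (Kc / J) E₀ → Lim E₀ p (C p)) ∧
      (∀ j, C { p with j := j } = C p) ∧ (p.m = 0 → Even p.n → 0 < C p)) ∧
    P144F.RP C ∧ P144F.IsLaw Set.univ C ν ∧ Extends Set.univ C T ∧ IsDist Set.univ T ∧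
    (∀ E₀, PlaneFam J 0 (fun _ => 0) (Kc / J) E₀ → P144F.FieldLim Set.univ E₀ 1 ν ∧
      DistLim Set.univ E₀ 1 1 C ∧ RenLim Set.univ E₀ κ₀ 1 1 T) ∧
    (∀ D b, P144Y.Nice D b → (∀ p, Good D p → Lim (crit J D b) p (CD D b p) ∧
      (∀ j, CD D b { p with j := j } = CD D b p) ∧
      (p.m = 0 → (b = none ∧ Even p.n ∨ b = some fun _ _ => true) → 0 < CD D b p)) ∧
      P144F.IsLaw D (CD D b) (νD D b) ∧ P144F.FieldLim D (crit J D b) 1 (νD D b)) ∧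
    ∀ K < 1, ∀ V, IsPotential V → ∃ lam₀ > 0,
      ∃ β Zσ Zε : ℝ → ℝ, AnalyticOnNhd ℝ β (Set.Ioo (-lam₀) lam₀) ∧
      AnalyticOnNhd ℝ Zσ (Set.Ioo (-lam₀) lam₀) ∧ AnalyticOnNhd ℝ Zε (Set.Ioo (-lam₀) lam₀) ∧
      β 0 = Kc / J ∧ Zσ 0 = 1 ∧ Zε 0 = 1 ∧ ∀ lam : ℝ, |lam| < lam₀ →
        0 < β lam ∧ 0 < Zσ lam ∧ 0 < Zε lam ∧ ∃ c : Fin 2 → Fin 2 → ℝ,
        (∃ μ, IsPlaneState J lam V (β lam) μ ∧ IsTorusState J lam V (β lam) μ ∧
          (∀ p, Good Set.univ p → Lim (famOf μ) p (Zσ lam ^ p.n * Zε lam ^ p.m * C p)) ∧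
          (∀ E₀, PlaneFam J 0 (fun _ => 0) (Kc / J) E₀ →
            LocDiff Set.univ E₀ (famOf μ) (Zσ lam) (Zε lam)) ∧
          P144F.FieldLim Set.univ (famOf μ) (Zσ lam) ν ∧
          DistLim Set.univ (famOf μ) (Zσ lam) (Zε lam) C ∧
          RenLim Set.univ (famOf μ) (fun a j j' => Zε lam ^ 2 * κ₀ a j j' + c j j')
            (Zσ lam) (Zε lam) T) ∧
        ∀ D b, (IsC1 D ∨ IsPC1 D ∨ IsPolygon D ∨
            (IsOpen D ∧ Bornology.IsBounded D ∧ Convex ℝ D) ∨ IsLip K D) → StdBC b →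
          LocDiff D (crit J D b) (inDom J lam V (β lam) D b) (Zσ lam) (Zε lam) ∧
            Identity D (crit J D b) (inDom J lam V (β lam) D b) (Zσ lam) (Zε lam) ∧
            DistDiff D (crit J D b) (inDom J lam V (β lam) D b) (Zσ lam) (Zε lam) ∧
            RenDiff D (crit J D b) (inDom J lam V (β lam) D b) κ₀
              (fun a j j' => Zε lam ^ 2 * κ₀ a j j' + c j j') (Zσ lam) (Zε lam) ∧
            (P144Y.Nice D b → (∀ p, Good D p →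
              Lim (inDom J lam V (β lam) D b) p (Zσ lam ^ p.n * Zε lam ^ p.m * CD D b p)) ∧
              P144F.FieldLim D (inDom J lam V (β lam) D b) (Zσ lam) (νD D b) ∧
              DistLim D (inDom J lam V (β lam) D b) (Zσ lam) (Zε lam) (CD D b) ∧
              Extends D (CD D b) (TD D b) ∧ IsDist D (TD D b) ∧
              RenLim D (inDom J lam V (β lam) D b)
                (fun a j j' => Zε lam ^ 2 * κ₀ a j j' + c j j') (Zσ lam) (Zε lam) (TD D b)) :=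
  P144DR.final

end Vale.Agent.Results.P144.AAAAACont
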