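import Vale.Agent.Results.P144.AAAAAll
import Vale.Agent.P144F.Plane
import Vale.Agent.P144F.Rp

namespace Vale.Agent.Results.P144.AAAAAField

open Filter Topology Vale.Agent.P144 Vale.Agent.P144Z Vale.Agent.P144F

theorem result : ∀ J > 0, ∃ (C : Pts → ℝ) (CD : Set ℂ → Option (ℝ → Config) → Pts → ℝ)
    (ν : ∀ r : ℕ, (Fin r → ℂ → ℝ) → MeasureTheory.Measure (Fin r → ℝ)),
    (∃ E₀, PlaneFam J 0 (fun _ => 0) (Kc / J) E₀) ∧
    (∀ p, Good Set.univ p → (∀ E₀, PlaneFam J 0 (fun _ => 0) (Kc / J) E₀ → Lim E₀ p (C p)) ∧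
      (∀ j, C { p with j := j } = C p) ∧ (p.m = 0 → Even p.n → 0 < C p)) ∧
    RP C ∧ IsLaw Set.univ C ν ∧
    (∀ E₀, PlaneFam J 0 (fun _ => 0) (Kc / J) E₀ → FieldLim Set.univ E₀ 1 ν) ∧
    (∀ D b, P144Y.Nice D b → (∀ p, Good D p → Lim (crit J D b) p (CD D b p) ∧
      (∀ j, CD D b { p with j := j } = CD D b p) ∧
      (p.m = 0 → (b = none ∧ Even p.n ∨ b = some fun _ _ => true) → 0 < CD D b p)) ∧
      ∃ νD, IsLaw D (CD D b) νD ∧ FieldLim D (crit J D b) 1 νD) ∧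
    ∀ K < 1, ∀ V, IsPotential V → ∃ lam₀ > 0,
      ∃ β Zσ Zε : ℝ → ℝ, AnalyticOnNhd ℝ β (Set.Ioo (-lam₀) lam₀) ∧
      AnalyticOnNhd ℝ Zσ (Set.Ioo (-lam₀) lam₀) ∧ AnalyticOnNhd ℝ Zε (Set.Ioo (-lam₀) lam₀) ∧
      β 0 = Kc / J ∧ Zσ 0 = 1 ∧ Zε 0 = 1 ∧ ∀ lam : ℝ, |lam| < lam₀ →
        0 < β lam ∧ 0 < Zσ lam ∧ 0 < Zε lam ∧
        (∃ μ, IsPlaneState J lam V (β lam) μ ∧ IsTorusState J lam V (β lam) μ ∧
          (∀ p, Good Set.univ p → Lim (famOf μ) p (Zσ lam ^ p.n * Zε lam ^ p.m * C p)) ∧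
          (∀ E₀, PlaneFam J 0 (fun _ => 0) (Kc / J) E₀ →
            LocDiff Set.univ E₀ (famOf μ) (Zσ lam) (Zε lam)) ∧
          FieldLim Set.univ (famOf μ) (Zσ lam) ν) ∧
        ∀ D b, (IsC1 D ∨ IsPC1 D ∨ IsPolygon D ∨
            (IsOpen D ∧ Bornology.IsBounded D ∧ Convex ℝ D) ∨ IsLip K D) → StdBC b →
          LocDiff D (crit J D b) (inDom J lam V (β lam) D b) (Zσ lam) (Zε lam) ∧
            Identity D (crit J D b) (inDom J lam V (β lam) D b) (Zσ lam) (Zε lam) ∧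
            (P144Y.Nice D b → ∀ p, Good D p →
              Lim (inDom J lam V (β lam) D b) p (Zσ lam ^ p.n * Zε lam ^ p.m * CD D b p)) := by
  intro J hJ
  obtain ⟨κ, -, -, h⟩ := AAAAAll.result
  obtain ⟨C, CD, ⟨E₁, hE⟩, hC, hD, h⟩ := h J hJ
  have g : ∀ {D : Set ℂ} {p : Pts} (F : Pts → ℝ), Good D p →
      (if p.n + p.m = 0 then 1 else F p) = F p := fun F hp => if_neg (by have := hp.1; omega)
  obtain ⟨ν, n1, n2, n3⟩ := plane_field (C := fun p => if p.n + p.m = 0 then 1 else C p) hJ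
    (if_pos rfl) (fun p hp E h => by simpa only [g C hp] using (hC p hp).1 E h) hE
  have hC' : ∀ p, Good Set.univ p → (∀ E₀, PlaneFam J 0 (fun _ => 0) (Kc / J) E₀ →
      Lim E₀ p (if p.n + p.m = 0 then 1 else C p)) ∧ (∀ j, (if p.n + p.m = 0 then 1 else
        C { p with j := j }) = if p.n + p.m = 0 then 1 else C p) ∧
      (p.m = 0 → Even p.n → 0 < if p.n + p.m = 0 then 1 else C p) := fun p hp => by
    obtain ⟨c1, c2, c3⟩ := hC p hp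
    simp only [g C hp, c2]
    exact ⟨c1, fun _ => trivial, c3⟩
  refine ⟨fun p => if p.n + p.m = 0 then 1 else C p,
    fun D b p => if p.n + p.m = 0 then 1 else CD D b p, ν, ⟨E₁, hE⟩, hC',
    rp_plane hJ (fun p hp => if_pos hp) hE fun p hp => ⟨(hC' p hp).1 _ hE, (hC' p hp).2.1⟩, n1, n2,
    fun D b hN => ⟨fun p hp => ?_, ?_⟩, fun K hK V hV => ?_⟩
  · obtain ⟨c1, c2, c3⟩ := hD D b hN p hp
    simp only [g (CD D b) hp, c2]
    exact ⟨c1, fun _ => trivial, c3⟩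
  · have o : IsOpen D ∧ Bornology.IsBounded D :=
      hN.cases.elim (fun h => ⟨h.1.1, h.1.2.1⟩) fun h => ⟨h.1.1, h.1.2.1⟩
    obtain ⟨νD, d1, d2, -⟩ := dom_field (b := b)
      (C := fun p => if p.n + p.m = 0 then 1 else CD D b p) hJ o.1 o.2 (if_pos rfl)
      fun p hp => by simpa only [g (CD D b) hp] using (hD D b hN p hp).1
    exact ⟨νD, d1, d2⟩
  obtain ⟨lam₀, h0, β, Zσ, Zε, a1, a2, a3, a4, a5, a6, h⟩ := h K hK V hV
  refine ⟨lam₀, h0, β, Zσ, Zε, a1, a2, a3, a4, a5, a6, fun lam hl => ?_⟩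
  obtain ⟨h1, h2, h3, ⟨μ, m1, m2, m3, m4⟩, h7⟩ := h lam hl
  refine ⟨h1, h2, h3, ⟨μ, m1, m2, fun p hp => by simpa only [g C hp] using m3 p hp, m4,
    n3 μ _ _ m1.1 m1.2.1 (m4 _ hE)⟩, fun D b hD hb => ?_⟩
  have H := h7 D b (by
    rcases hD with hD | hD | hD | hD | hD
    exacts [Or.inl ⟨Or.inl hD, Or.inl hb⟩, Or.inl ⟨Or.inr (Or.inl hD), Or.inl hb⟩,
      Or.inl ⟨Or.inr (Or.inr (Or.inl hD)), Or.inl hb⟩,
      Or.inl ⟨Or.inr (Or.inr (Or.inr hD)), Or.inl hb⟩, Or.inr (Or.inl ⟨Or.inl hD, Or.inl hb⟩)])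
  exact ⟨H.1, H.2.1, fun hN p hp => by simpa only [g (CD D b) hp] using H.2.2 hN p hp⟩

end Vale.Agent.Results.P144.AAAAAField
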